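import Crest.Agent.X212.Prm93.Chg
import Crest.Agent.X212.Map77.Cls
import Crest.Agent.X212.Ell97.Main

-- ▼ part X212/Map77/Rem
section

/-! The frame of `G` with the measure of `F`. -/

set_option autoImplicit false
set_option linter.unusedSectionVars false
noncomputable section
open scoped Manifold ContDiff Topology InnerProductSpace NNReal
open MeasureTheory Set Function Filter

namespace Crest.Agent.X212.Map77
open An An.Pre Sob92 Ell97 Prm93

variable {E : Type} [NormedAddCommGroup E] [NormedSpace ℝ E] [FiniteDimensional ℝ E]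
  [MeasurableSpace E] [BorelSpace E]
  {HM : Type} [TopologicalSpace HM] {I : ModelWithCorners ℝ E HM} [I.Boundaryless]
  {M : Type} [TopologicalSpace M] [ChartedSpace HM M] [IsManifold I ∞ M]
  [MeasurableSpace M] [T2Space M] [BorelSpace M] {ι ι' : Type} [Fintype ι] [Fintype ι']

/-- the frame of `G` with the measure of `F` -/
def rem (G : Fr I M ι) (F : Pre I M ι') : Fr I M ι where
  e := G.e
  μ := F.μ
  sm := G.sm
  span := G.span
  fin := F.fin
  dens := F.dens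
  P := G.P
  c := G.c
  dv a := Met55.dvg F (G.e a)
  P_sm := G.P_sm
  c_sm := G.c_sm
  dv_sm a x := (Met55.dvg_spec isOpen_univ fun y _ => G.sm a y).1 x trivial
  P_symm := G.P_symm
  P_e := G.P_e
  P_ker := G.P_ker
  c_P := G.c_P
  br := G.br
  ibp a f hf hc := (Met55.dvg_spec isOpen_univ fun y _ => G.sm a y).2 f hf hc (subset_univ _)

variable {G : Fr I M ι} {F : Fr I M ι'} {A : ι → ι' → M → ℝ} {A' : ι' → ι → M → ℝ}

theorem rem_dv (h : Mix F.toPre G.toPre A) (hA : ∀ a b, Sm I (A a b)) (a : ι) :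
    (rem G F.toPre).dv a = fun x => ∑ b, (F.D b (A a b) x + A a b x * F.dv b x) := by
  have hs : ∀ b, Sm I fun x => F.D b (A a b) x + A a b x * F.dv b x := fun b =>
    (F.sm_D (hA a b) b).add ((hA a b).smul (F.dv_sm b))
  funext x
  refine Met55.dvg_eq isOpen_univ (fun y _ => G.sm a y) (fun f h1 h2 _ => ?_)
    (fun y _ => (contMDiff_finsetSum fun b _ => hs b) y) (mem_univ x)
  have i1 : ∀ b, Integrable (fun y => A a b y * F.D b f y) F.μ := fun b =>
    ((hA a b).continuous.mul (F.sm_D h1 b).continuous).integrable_of_hasCompactSupport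
      (F.hcs_D h2 b).mul_left
  have i2 : ∀ b, Integrable (fun y => (F.D b (A a b) y + A a b y * F.dv b y) * f y) F.μ := fun b =>
    ((hs b).continuous.mul h1.continuous).integrable_of_hasCompactSupport h2.mul_left
  have i3 : ∀ b, Integrable (fun y => F.dv b y * (A a b y * f y)) F.μ := fun b =>
    ((F.dv_sm b).continuous.mul
      ((hA a b).continuous.mul h1.continuous)).integrable_of_hasCompactSupport h2.mul_left.mul_left
  change ∫ y, G.D a f y ∂F.μ = _
  simp only [h.D, smul_eq_mul, Finset.sum_mul]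
  rw [integral_finsetSum _ fun b _ => i1 b, integral_finsetSum _ fun b _ => i2 b,
    ← Finset.sum_neg_distrib]
  refine Finset.sum_congr rfl fun b _ => ?_
  have e := F.ibp b (fun y => A a b y * f y) ((hA a b).smul h1) h2.mul_left
  have e2 : ∫ y, (A a b y * F.D b f y + (F.D b (A a b) y + A a b y * F.dv b y) * f y) ∂F.μ =
      ∫ y, (F.D b (fun y => A a b y * f y) y + F.dv b y * (A a b y * f y)) ∂F.μ :=
    integral_congr_ae (.of_forall fun y => by
      have := Met55.dv_mul (X := F.e b) (hA a b y) (h1 y)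
      simp only [D_def, this]; ring)
  have i4 : Integrable (fun y => F.D b (fun y => A a b y * f y) y) F.μ :=
    (F.sm_D (u := fun y => A a b y * f y) ((hA a b).smul h1)
      b).continuous.integrable_of_hasCompactSupport (F.hcs_D h2.mul_left b)
  rw [integral_add (i1 b) (i2 b), integral_add i4 (i3 b)] at e2
  linarith

theorem cmp_rem (h : Mix F.toPre G.toPre A) (hA : ∀ a b, F.Cb (A a b)) (h' : Mix G.toPre F.toPre A')
    (hA' : ∀ a b, F.Cb (A' a b)) : Cmp F.toPre (rem G F.toPre).toPre :=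
  have h1 : Mix F.toPre (rem G F.toPre).toPre A := h
  ⟨⟨⟨A, h1, hA⟩, 1, by simp [rem]⟩, ⟨A', h', fun a b => h1.Cb hA (hA' a b)⟩, 1, by simp [rem]⟩

variable [SecondCountableTopology M]

theorem tame_rem {C : ℕ → ℝ} (hF : F.Tame C) (h : Mix F.toPre G.toPre A)
    (hA : ∀ a b, F.Cb (A a b)) (h' : Mix G.toPre F.toPre A') (hA' : ∀ a b, F.Cb (A' a b))
    (hP : ∀ a b, F.Cb (G.P a b)) (hc : ∀ a b k, F.Cb (G.c a b k)) :
    ∃ C', (rem G F.toPre).Tame C' := by
  set R := rem G F.toPre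
  have h1 : Mix F.toPre R.toPre A := h
  have h2 : Mix R.toPre F.toPre A' := h'
  obtain ⟨C1, e1⟩ := Cb_unif (f := fun s : ι × ι => G.P s.1 s.2) fun s => h1.Cb hA (hP _ _)
  obtain ⟨C2, e2⟩ := Cb_unif (f := fun s : ι × ι × ι => G.c s.1 s.2.1 s.2.2)
    fun s => h1.Cb hA (hc _ _ _)
  obtain ⟨C3, e3⟩ := Cb_unif (F := R.toPre) (f := R.dv) fun a => h1.Cb hA <| by
    rw [rem_dv h fun a b => (hA a b).choose_spec.1]
    exact Cb_sum _ fun b _ => Cb_add (Cb_D (hA a b) b) (Cb_smul (hA a b) ⟨C, hF.dv b⟩)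
  obtain ⟨C4, e4⟩ := Cb_unif (f := fun s : ι × ι' => A s.1 s.2) fun s => hA _ _
  obtain ⟨C5, e5⟩ := Cb_unif (f := fun s : ι' × ι => A' s.1 s.2) fun s => h1.Cb hA (hA' _ _)
  have key : ∀ k (f : M → ℝ), Sm I f → HasCompactSupport f →
      C 0 * F.ip k f f ≤ |C 0| * cN ι ι' 1 (C5 k) k ^ 2 * R.ip k f f := fun k f hf hc => by
    have := h2.nrm (fun a b => (e5 (a, b)).1) (c := 1) (by simp [R, rem]) k
      (fun a b => (e5 (a, b)).2 k) hf hc
    have h3 := pow_le_pow_left₀ (nrm_nonneg _ _) this 2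
    rw [mul_pow, nrm_sq, nrm_sq, ← ip_eq, ← ip_eq] at h3
    rw [mul_assoc]
    exact mul_le_mul (le_abs_self _) h3 (F.ip_nonneg k f) (abs_nonneg _)
  refine ⟨fun k => max (max (C1 k) (max (C2 k) (C3 k))) (max (cM (Fintype.card ι') (C4 k) k * |C k|)
    (max (|C 0| * cN ι ι' 1 (C5 1) 1 ^ 2) (|C 0| * cN ι ι' 1 (C5 4) 4 ^ 2))),
    fun a b => CBs_mono (e1 (a, b)) fun k => by simp,
    fun a b l => CBs_mono (e2 (a, b, l)) fun k => by simp,
    fun a => CBs_mono (e3 a) fun k => by simp, fun f hf hc => ?_, fun f hf hc x => ?_,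
    fun K hK => ?_⟩
  · exact ((hF.l4 f hf hc).trans (key 1 f hf hc)).trans
      (mul_le_mul_of_nonneg_right (by simp) (R.ip_nonneg 1 f))
  · exact ((hF.sup f hf hc x).trans (key 4 f hf hc)).trans
      (mul_le_mul_of_nonneg_right (by simp) (R.ip_nonneg 4 f))
  · obtain ⟨χ, c1, c2⟩ := hF.exh K hK
    exact ⟨χ, ⟨c1.1, fun k => CB_mono (h1.CB (fun a b => (e4 (a, b)).1) k
      (fun a b => (e4 (a, b)).2 k) c1.1 (c1.2 k)) (by simp)⟩, c2⟩

end Crest.Agent.X212.Map77
end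
end

-- ▼ part X212/Map77/Tw

/-! Operators written in a frame `G` acting on the Sobolev scale of another frame `F`. -/

set_option autoImplicit false
set_option linter.unusedSectionVars false
noncomputable section
open scoped Manifold ContDiff Topology InnerProductSpace
open MeasureTheory Set Function Filter

namespace Crest.Agent.X212.Map77
open An An.Pre Sob92 Ell97 Prm93 Fred93

variable {E : Type} [NormedAddCommGroup E] [NormedSpace ℝ E] [FiniteDimensional ℝ E]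
  [MeasurableSpace E] [BorelSpace E]
  {HM : Type} [TopologicalSpace HM] {I : ModelWithCorners ℝ E HM} [I.Boundaryless]
  {M : Type} [TopologicalSpace M] [ChartedSpace HM M] [IsManifold I ∞ M]
  [MeasurableSpace M] [T2Space M] [BorelSpace M] [SecondCountableTopology M]
  {ι ι' : Type} [Fintype ι] [Fintype ι']
  {U V W : Type} [NormedAddCommGroup U] [InnerProductSpace ℝ U] [FiniteDimensional ℝ U]
  [NormedAddCommGroup V] [InnerProductSpace ℝ V] [FiniteDimensional ℝ V]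
  [NormedAddCommGroup W] [InnerProductSpace ℝ W] [FiniteDimensional ℝ W]

/-- two comparable tame frames -/
structure Tw (F : Fr I M ι') (G : Fr I M ι) : Prop where
  t0 : ∃ C, F.Tame C
  t1 : ∃ C, G.Tame C
  cmp : Cmp F.toPre G.toPre

/-- an operator with bounded coefficients -/
structure Nc (F : Pre I M ι') (P : ι → ι → M → ℝ) (A : Op M ι V W) : Prop where
  p : F.Cb A.p
  q : F.Cb A.q
  σ : ∀ a, F.Cb (A.σ a)
  B : F.Cb A.B
  alg : Alg P A

/-- the operator `A` of the frame `G` on the scale of `F` -/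
def LH (F : Pre I M ι') (G : Pre I M ι) (k : ℕ) (p : M → V →L[ℝ] V) (q : M → W →L[ℝ] W)
    (A : Op M ι V W) : F.H (k + 1) p →L[ℝ] F.H k q := F.lift (k + 1) k p q (G.op A.σ A.B)

theorem Nc.of_sb {T : Type} [NormedAddCommGroup T] [NormedSpace ℝ T] {F : Pre I M ι'} {O : Set T}
    {G : T → Pre I M ι} {S : ι → ι' → T → M → ℝ} {hG : ∀ t ∈ O, Mix F (G t) fun a b => S a b t}
    {hS : ∀ a b, SB F O (S a b)} {A : T → Op M ι V W} (h : (sb F hG hS).op A) {t : T} (ht : t ∈ O)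
    {P : ι → ι → M → ℝ} (ha : Alg P (A t)) : Nc F P (A t) :=
  ⟨h.p.cb t ht, h.q.cb t ht, fun a => (h.σ a).cb t ht, h.B.cb t ht, ha⟩

theorem sm_LH {T : Type} [NormedAddCommGroup T] [NormedSpace ℝ T] {F : Pre I M ι'} {O : Set T}
    {G : T → Pre I M ι} {S : ι → ι' → T → M → ℝ} {hG : ∀ t ∈ O, Mix F (G t) fun a b => S a b t}
    {hS : ∀ a b, SB F O (S a b)} {A : T → Op M ι V W} (h : (sb F hG hS).op A)
    {p : M → V →L[ℝ] V} {q : M → W →L[ℝ] W} (hq : F.Cb q) (e : ∀ t, (A t).q = q)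
    {P : ι → ι → M → ℝ} (ha : ∀ t, Alg P (A t)) (hi : Prj q) (k : ℕ) :
    ContDiffOn ℝ ∞ (fun t => LH F (G t) k p q (A t)) O :=
  SB.lift_op hG hS h.σ h.B hq hi.idem (fun t _ => e t ▸ (ha t).qσ)
    fun t _ => Maps.of_left (e t ▸ (ha t).qB)

namespace Tw
variable {F : Fr I M ι'} {G : Fr I M ι} (h : Tw F G) {A : Op M ι V W} {j k : ℕ}
include h

theorem sup : Sup F.toPre (h.t0.choose 0) := Sup.of_tame h.t0.choose_spec

theorem good (hA : Nc F.toPre G.P A) : ∃ C, G.Tame C ∧ A.Good G C :=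
  good_of h.t1.choose_spec (h.cmp.Cb_iff.1 hA.p) (h.cmp.Cb_iff.1 hA.q)
    (fun a => h.cmp.Cb_iff.1 (hA.σ a)) (h.cmp.Cb_iff.1 hA.B) hA.alg

theorem nc_adj (hA : Nc F.toPre G.P A) : Nc F.toPre G.P (A.adj G) := by
  obtain ⟨C, h1, h2⟩ := h.good hA
  obtain ⟨C', h3⟩ := good_adj h1 h2
  exact ⟨hA.q, hA.p, fun a => h.cmp.Cb_iff.2 ⟨_, h3.σ a⟩, h.cmp.Cb_iff.2 ⟨_, h3.B⟩, hA.alg.adj G⟩

variable (hA : Nc F.toPre G.P A)
include hA

theorem conj (k : ℕ) : LH F.toPre G.toPre k A.p A.q A =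
    ((chg k A.q h.cmp).symm : G.H k A.q →L[ℝ] F.H k A.q) ∘L A.H G k ∘L
      (chg (k + 1) A.p h.cmp : F.H (k + 1) A.p →L[ℝ] G.H (k + 1) A.p) :=
  lift_conj h.cmp (rep_OpH (h.good hA).choose_spec.2 k).1

theorem rep (k : ℕ) : F.Rep (LH F.toPre G.toPre k A.p A.q A) (G.op A.σ A.B) :=
  h.conj hA k ▸ rep_conj h.cmp (rep_OpH (h.good hA).choose_spec.2 k).1

theorem chg_LH (x : F.H (k + 1) A.p) : chg k A.q h.cmp (LH F.toPre G.toPre k A.p A.q A x) =
    A.H G k (chg (k + 1) A.p h.cmp x) := by simp [h.conj hA k]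

theorem val (hk : 4 ≤ k) (x : F.H (k + 1) A.p) :
    F.val k A.q (LH F.toPre G.toPre k A.p A.q A x) = G.op A.σ A.B (F.val (k + 1) A.p x) := by
  have := FiniteDimensional.complete ℝ V
  have := FiniteDimensional.complete ℝ W
  obtain ⟨S, h1, h2⟩ := h.cmp.1.1
  rw [LH, h1.op]
  exact val_opH h.sup hk (fun b => Cb_sum _ fun a _ => Cb_smul (h2 a b) (hA.σ a)) hA.B
    (fun b x v => by simp [hA.alg.qσ]) (Maps.of_left hA.alg.qB) x

theorem incl (hj : j ≤ k) (x : F.H (k + 1) A.p) :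
    F.incl k j A.q (LH F.toPre G.toPre k A.p A.q A x) =
      LH F.toPre G.toPre j A.p A.q A (F.incl (k + 1) (j + 1) A.p x) :=
  Rep_incl (h.rep hA k) (h.rep hA j) (by omega) hj x

/-- **regularity** -/
theorem reg (hc : A.CliffL G) (hj : k ≤ j) {x : F.H (k + 1) A.p} {w : F.H j A.q}
    (e : LH F.toPre G.toPre k A.p A.q A x = F.incl j k A.q w) :
    ∃ y : F.H (j + 1) A.p, F.incl (j + 1) (k + 1) A.p y = x := by
  obtain ⟨C, h1, h2⟩ := h.good hA
  obtain ⟨y, hy, -⟩ := reg_up h1 h2 hc hj (x := chg _ _ h.cmp x) (w := chg _ _ h.cmp w)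
    (by rw [← h.chg_LH hA, e, chg_incl _ hj])
  exact ⟨(chg _ _ h.cmp).symm y, (chg _ _ h.cmp).injective (by
    rw [chg_incl _ (by omega), ContinuousLinearEquiv.apply_symm_apply, hy])⟩

theorem fr {n : ℤ} (e : Fr (A.H G k) n) : Fr (LH F.toPre G.toPre k A.p A.q A) n :=
  h.conj hA k ▸ e.conj _ _

/-- `A* A` on the scale of `F` -/
theorem LL (k : ℕ) : LH F.toPre G.toPre k A.q A.p (A.adj G) ∘L LH F.toPre G.toPre (k + 1) A.p A.q A =
    ((chg k A.p h.cmp).symm : G.H k A.p →L[ℝ] F.H k A.p) ∘L ((Hs G A k).comp (A.H G (k + 1))) ∘L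
      (chg (k + 2) A.p h.cmp : F.H (k + 2) A.p →L[ℝ] G.H (k + 2) A.p) := by
  ext1 x
  have e := h.chg_LH (h.nc_adj hA) (k := k) (LH F.toPre G.toPre (k + 1) A.p A.q A x)
  refine (chg k A.p h.cmp).injective (e.trans ?_)
  simp only [ContinuousLinearMap.comp_apply, ContinuousLinearEquiv.coe_coe,
    ContinuousLinearEquiv.apply_symm_apply, ← h.chg_LH hA]
  rfl

theorem LL_eq_zero (hc : A.CliffL G) (x : F.H (k + 2) A.p)
    (e : LH F.toPre G.toPre k A.q A.p (A.adj G) (LH F.toPre G.toPre (k + 1) A.p A.q A x) = 0) :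
    LH F.toPre G.toPre (k + 1) A.p A.q A x = 0 := by
  obtain ⟨C, h1, h2⟩ := h.good hA
  have e1 := DFunLike.congr_fun (h.LL hA k) x
  rw [ContinuousLinearMap.comp_apply, e] at e1
  refine (chg (k + 1) A.q h.cmp).injective ?_
  rw [h.chg_LH hA, map_zero]
  exact (hlf h1 h2 hc).LL_eq_zero.1 ((chg k A.p h.cmp).symm.injective (e1.symm.trans (map_zero _).symm))

theorem fr_LL [CompactSpace M] (hc : A.CliffL G) (k : ℕ) :
    Fr (LH F.toPre G.toPre k A.q A.p (A.adj G) ∘L LH F.toPre G.toPre (k + 1) A.p A.q A) 0 :=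
  let ⟨_, h1, h2⟩ := h.good hA
  h.LL hA k ▸ (Ell97.fr_LL h1 h2 hc k).conj _ _

end Tw

end Crest.Agent.X212.Map77
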