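import Crest.Agent.X212.Map77.Row
import Crest.Agent.X212.Grp76.Fre
import Crest.Agent.X212.Nk89.Idx
import Crest.Agent.X212.Mod61.Tr

-- ▼ part X212/Map77/Slc
section

/-! The bootstrap step and the leaf `GrpM.Slc`. -/

set_option autoImplicit false
set_option linter.unusedSectionVars false
noncomputable section
open scoped Manifold ContDiff Topology InnerProductSpace
open MeasureTheory Set Function Filter Module

namespace Crest.Agent.X212.Map77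
open An An.Pre Sob92 Ell97 Prm93 Fred93 Mod61

variable {E : Type} [NormedAddCommGroup E] [NormedSpace ℝ E] [FiniteDimensional ℝ E]
  [MeasurableSpace E] [BorelSpace E]
  {HM : Type} [TopologicalSpace HM] {I : ModelWithCorners ℝ E HM} [I.Boundaryless]
  {M : Type} [TopologicalSpace M] [ChartedSpace HM M] [IsManifold I ∞ M]
  [MeasurableSpace M] [T2Space M] [BorelSpace M] [SecondCountableTopology M]
  {ι : Type} [Fintype ι] {lam : Type} [Fintype lam]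
  {T : Type} [NormedAddCommGroup T] [NormedSpace ℝ T] {𝔉 : Fam I M ι lam T} {j k : ℕ}
  {o : Ref 𝔉} {Fs : T → Fr I M ι} {r n m : ℕ}

theorem add_z {X Y Z : Type} [AddMonoid X] [AddMonoid Y] [AddMonoid Z] (a : X × Y × Z) (z : Z)
    (h : a.2.2 = 0) : (a + (0, 0, z)).2.2 = z := by simp [h]

namespace Adj
variable (h : Adj 𝔉 Fs) {e : T → PtX M ι lam r n m}
include h

theorem incl_row (y : Pnt o r) {t : T} (ht : t ∈ 𝔉.Q) (hj : j ≤ k) (x : o.C r k) :
    𝔉.F0.incl k j o.Pg (row Fs k y t x) = row Fs j y t (o.iC r j k x) := by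
  have H := h.hy o ht
  rw [row_apply, row_apply, ← incl_sC h.toOK hj ht x]
  exact (H.toTw.incl (H.nc_row ((sb_ut h.toOK y).cb _ ht)) hj _ :)

theorem row_mem (hk : 3 ≤ k) (y : Pnt o r) {t : T} (ht : t ∈ 𝔉.Q) (hj : k ≤ j) {v : o.C r j}
    (h0 : row Fs k y t (o.iC r k j v - y.pt k) = 0) :
    row Fs j y t v ∈ range (𝔉.F0.incl (j + 1) j o.Pg) := by
  have e1 : row Fs j y t (v - y.pt j) = 0 := incl_inj 𝔉.F0 hj _ (by
    rw [h.incl_row y ht hj, map_sub (o.iC r k j), iC_pt h.toOK hk hj, h0, map_zero])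
  refine ⟨row Fs (j + 1) y t (y.pt (j + 1)), ?_⟩
  rw [h.incl_row y ht (Nat.le_add_right j 1), iC_pt h.toOK (by omega) (Nat.le_add_right j 1)]
  exact (sub_eq_zero.1 ((map_sub _ _ _).symm.trans e1)).symm

theorem mem_iC {t : T} (ht : t ∈ 𝔉.Q) (hj : j ≤ k) {v : o.C r j}
    (h0 : sC o r j t v ∈ range (𝔉.F0.incl (k + 1) (j + 1) (bd o).pC)) :
    v ∈ range (o.iC r j k) := by
  obtain ⟨x, hx⟩ := h0
  have e : sC o r k t (0, 0, v.2.2) = 0 := by
    rw [sC, ContinuousLinearMap.comp_apply, jC_apply, map_zero, map_zero, add_zero, map_zero]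
  refine ⟨sC' o r k t x + (0, 0, v.2.2), sC_inj h.toOK ht ?_ ?_⟩
  · rw [← incl_sC h.toOK hj ht, map_add, sC_sC' h.toOK ht, e, add_zero, hx]
  · exact (iC_z _).trans (add_z _ _ (sC'_z t x))

theorem boot (he : Aff o Fs r n m e) (hk : 7 ≤ k) (y : Pnt o r) (hj : k ≤ j)
    {f : o.C r j → o.Y n m j} (hf : RepF e f) {v : o.C r j} (hv : v ∈ o.U r j)
    (h0 : row Fs k y v.2.2.2 (o.iC r k j v - y.pt k) = 0)
    (h1 : f v ∈ range (o.iY n m j (j + 1))) : v ∈ range (o.iC r j (j + 1)) := by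
  obtain ⟨g, g1, g2⟩ := he j (by omega)
  obtain ⟨w, hw⟩ := h1
  have e0 : f v = f0 o Fs r n m j v + o.iY n m j (j + 1) (g v) :=
    repF_eqOn h.toOK (by omega) (by omega) hf (h.repF g1 g2) hv
  have e1 := h.row_mem (by omega) y hv hj h0
  rw [row_apply] at e1
  have e2 : 𝔉.F0.incl (j + 1) j _ (sY o n m _ (w - g v)) = (bd o).NH 𝔉.F0.toPre (Fs v.2.2.2) j
      (u0 o v.2.2.2) (sC o r j v.2.2.2 v) := by
    rw [incl_sY (Nat.le_add_right j 1), map_sub (o.iY n m j (j + 1)), hw, e0, add_sub_cancel_right,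
      f0, sY_jY, hC_eq]
  exact h.mem_iC hv (Nat.le_add_right j 1) ((h.hy o hv).boot ((sb_u0 o h.toOK).cb _ hv)
    ((sb_ut h.toOK y).cb _ hv) e1 ⟨_, e2⟩)

theorem sm_row (y : Pnt o r) : ContDiffOn ℝ ∞ (row Fs k y) 𝔉.Q :=
  (h.sm_RR o (sb_ut h.toOK y)).clm_comp ((sm_SH o h.toOK).clm_comp contDiffOn_const)

/-- the gauge condition of the slice depends on the parameter -/
theorem exists_gam [FiniteDimensional ℝ T] (he : Aff o Fs r n m e) (hk : 7 ≤ k) (y : Pnt o r) :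
    ∃ γ : o.C r k → 𝔉.F0.H k o.Pg, ContDiff ℝ ∞ γ ∧ HasStrictFDerivAt γ (sig Fs k y) (y.pt k) ∧
      γ (y.pt k) = 0 ∧ ∀ᶠ v₀ in 𝓝 (y.pt k), γ v₀ = 0 → ∀ j, k ≤ j → ∀ f : o.C r j → o.Y n m j,
        RepF e f → ∀ v : o.C r j, o.iC r k j v = v₀ → f v ∈ range (o.iY n m j (j + 1)) →
          v ∈ range (o.iC r j (j + 1)) := by
  obtain ⟨γ, h1, h2, h3, h4⟩ := Map77.exists_gam (tC o r k) h.opn (h.sm_row y)
    (x := y.pt k) y.ht
  refine ⟨γ, h1, h2.congr_fderiv ?_, h3, h4.mono fun v₀ hv h5 j hj f hf v e h6 => ?_⟩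
  · rw [sig, ← ut_self]; rfl
  · subst e
    have e : tC o r k (o.iC r k j v) = v.2.2.2 := iC_t (j := k) v
    rw [e] at hv
    exact h.boot he hk y hj hf hv.1 (hv.2 h5) h6

/-- **the leaf `Slc` from slice data whose row is `sig` and finitely many further rows** -/
theorem slc_of [FiniteDimensional ℝ T] (he : Aff o Fs r n m e) (hk : 7 ≤ k)
    {Al : (M → CL o.m.V o.m.V) → Circle → Prop} (Γ : GrpM o r k Al) (y : Pnt o r) {K : Type}
    [NormedAddCommGroup K] [NormedSpace ℝ K] [FiniteDimensional ℝ K]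
    (a : (𝔉.F0.H k o.Pg × K) ≃L[ℝ] Γ.H) {d : ℤ}
    (hD : Γ.Free (y.pt k) → ∃ (l : o.C r k →L[ℝ] K) (D : Slc61.SliceData Γ.G Γ.L Γ.H (y.pt k)),
      D.σ = (a : _ →L[ℝ] Γ.H) ∘L (sig Fs k y).prod l ∧
      (∀ U ∈ 𝓝 (0 : Γ.L), D.e '' U ∈ 𝓝 (1 : Γ.G)) ∧
      (∀ x, ∃ s : Γ.L →L[ℝ] CL o.m.V o.m.V, HasStrictFDerivAt (fun ξ => Γ.u (D.e ξ) x) s 0) ∧
      ∃ s : Γ.L →L[ℝ] ℂ, HasStrictFDerivAt (fun ξ => (Γ.ζ (D.e ξ) : ℂ)) s 0)
    (hF : ∀ f : o.C r k → o.Y n m k, RepF e f →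
      Fr ((fderiv ℝ f (y.pt k)).prod (sig Fs k y)) d) : Γ.Slc e (d - finrank ℝ K) y := fun hf => by
  obtain ⟨l, D, h1, h2, h3, h4⟩ := hD hf
  obtain ⟨γ, g1, g2, g3, g4⟩ := h.exists_gam he hk y
  refine ⟨⟨D.e, D.d, fun v => a (γ v, l (v - y.pt k)), D.σ, D.e_zero, D.act, ?_, by simp [g3], D.bij,
    D.tame⟩, a.contDiff.comp (g1.prodMk (l.contDiff.comp (contDiff_id.sub contDiff_const))), h2, h3,
    h4, fun f hf => ?_, g4.mono fun v hv h5 => hv ?_⟩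
  · rw [h1]
    exact a.hasStrictFDerivAt.comp _ (g2.prodMk
      (l.hasStrictFDerivAt.comp _ ((hasStrictFDerivAt_id _).sub_const _)))
  · have := fr_row (hF f hf) l a
    rwa [← h1] at this
  · exact congrArg Prod.fst (a.injective (h5.trans (map_zero a).symm))

end Adj

end Crest.Agent.X212.Map77
end
end

-- ▼ part X212/Map77/Fin

/-! The leaf `GrpM.Slc` for the gauge groups `gm1`, `gmE`, `gmA`, `gmC`. -/

set_option autoImplicit false
set_option linter.unusedSectionVars false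
noncomputable section
open scoped Manifold ContDiff Topology InnerProductSpace
open MeasureTheory Set Function Filter Module

namespace Crest.Agent.X212.Map77
open An An.Pre Sob92 Ell97 Prm93 Fred93 Mod61 Grp76

variable {E : Type} [NormedAddCommGroup E] [NormedSpace ℝ E] [FiniteDimensional ℝ E]
  [MeasurableSpace E] [BorelSpace E]
  {HM : Type} [TopologicalSpace HM] {I : ModelWithCorners ℝ E HM} [I.Boundaryless]
  {M : Type} [TopologicalSpace M] [ChartedSpace HM M] [IsManifold I ∞ M]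
  [MeasurableSpace M] [T2Space M] [BorelSpace M] [SecondCountableTopology M]
  {ι : Type} [Fintype ι] {lam : Type} [Fintype lam]
  {T : Type} [NormedAddCommGroup T] [NormedSpace ℝ T] {𝔉 : Fam I M ι lam T} {k : ℕ}
  {o : Ref 𝔉} {Fs : T → Fr I M ι} {r n m : ℕ} {e : T → PtX M ι lam r n m} {d : ℤ}

/-- positive divergence at infinity depends on the measure only -/
theorem hdy_mix {ι' : Type} [Fintype ι'] {F : Fr I M ι'} {G : Fr I M ι} {A : ι' → ι → M → ℝ}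
    (h : Mix G.toPre F.toPre A) (hA : ∀ a b, F.Cb (A a b)) (hμ : G.μ = F.μ) (hy : Nk89.Hdy F) :
    Nk89.Hdy G := by
  obtain ⟨X, χ, c, B, R, H, hc⟩ := hy
  obtain ⟨C, hC⟩ := Cb_unif (f := fun s : ι' × ι => A s.1 s.2) fun s => hA _ _
  have s : ∀ a b, Sm I (A a b) := fun a b => (hC (a, b)).1
  have e : ∀ b x, F.dv b x = ∑ a, (G.D a (A b a) x + A b a x * G.dv a x) := fun b x =>
    (Met55.dvg_eq isOpen_univ (fun y _ => F.sm b y) (fun f h1 h2 _ => hμ ▸ F.ibp b f h1 h2)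
      (fun y _ => F.dv_sm b y) (mem_univ x)).symm.trans (congrFun (rem_dv h s b) x)
  refine ⟨fun a x => ∑ b, A b a x * X b x, χ, c, B, ∑ _b : ι', C 0 * R,
    ⟨fun a => contMDiff_finsetSum fun b _ => (s b a).mul (H.sX b), fun a x =>
      (Finset.abs_sum_le_sum_abs _ _).trans (Finset.sum_le_sum fun b _ => ?_), H.sχ, H.c0, H.B0,
      fun x => (H.le x).trans_eq (congrArg (· + _) ?_)⟩, hc⟩
  · have := CB_bound ((hC (b, a)).2 0) x
    rw [abs_mul]
    exact mul_le_mul this (H.bX b x) (abs_nonneg _) ((norm_nonneg _).trans this)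
  · have e1 : ∀ a, G.D a (fun x => ∑ b, A b a x * X b x) x =
        ∑ b, (A b a x * G.D a (X b) x + G.D a (A b a) x * X b x) := fun a => by
      refine (dv_sum _ fun b _ => md ((s b a).mul (H.sX b)) x).trans
        (Finset.sum_congr rfl fun b _ => ?_)
      exact (Met55.dv_mul (X := G.e a) (s b a x) (H.sX b x)).trans (add_comm _ _)
    simp only [e, e1, h.D, smul_eq_mul, Finset.sum_mul, Finset.mul_sum, ← Finset.sum_add_distrib]
    rw [Finset.sum_comm]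
    exact Finset.sum_congr rfl fun a _ => Finset.sum_congr rfl fun b _ => by ring

theorem hdy_rem (h : 𝔉.OK) (hy : Nk89.Hdy 𝔉.F0) {t : T} (ht : t ∈ 𝔉.Q) :
    Nk89.Hdy (Nk89.Fs 𝔉 t) :=
  hdy_mix (G := Nk89.Fs 𝔉 t) (mix_inv h ht) (fun a b => (h.sSi a b).cb t ht) rfl hy

theorem isD_ga [o.B0] (h : 𝔉.OK) (hk : 7 ≤ k) (y : Pnt o r) :
    IsD y ((gaM o h hk r).d (y.pt k)) :=
  ⟨fun ξ x a => ((hy1 o h hk).val_d1 _ ξ x a).trans
      (by simp only [QB.conn, o.A_eq, y.val_α (k := k) (by omega)]),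
    fun ξ x => ((hy1 o h hk).val_d2 _ ξ x).trans
      (by simp only [QB.spin, y.val_φ (k := k) (by omega)]), (hy1 o h hk).d_z _⟩

theorem sig_eq_row (y : Pnt o r) : sig (Nk89.Fs 𝔉) k y = Nk89.row k y ∘L Nk89.prC o r k := rfl

/-- perturbations that gain a derivative may be added -/
theorem Aff.add (he : Aff o Fs r n m e) (h : 𝔉.OK) {τ : T → PtX M ι lam r n m} (hτ : o.Sm τ) :
    Aff o Fs r n m (e + τ) := fun j hj =>
  let ⟨g, g1, g2⟩ := he j hj
  let ⟨f, hf⟩ := hτ j hj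
  ⟨g + f, g1.add hf.1, fun y => by
    rw [Pi.add_apply, map_add, ← add_assoc]
    exact (g2 y).add ((hf.2 y).iY h (by omega) j.le_succ)⟩

theorem Aff.tot (he : Aff o Fs r n m e) (h : 𝔉.OK) {W : Type} {τ : W → T → PtX M ι lam r n m}
    (hτ : ∀ w, o.Sm (τ w)) (q : W →₀ ℝ) : Aff o Fs r n m (e + q.sum fun w c => c • τ w) :=
  he.add h (mem_SmS.1 (Submodule.sum_mem _ fun w _ => Submodule.smul_mem _ _ (mem_SmS.2 (hτ w))))

namespace Adj
variable (h : Adj 𝔉 Fs)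
include h

/-- ends: `τ` plus the unperturbed equations at the base point gains a derivative -/
theorem aff_of {τ : T → PtX M ι lam r n m} (hg : ∀ j, 7 ≤ j → ∃ g : o.C r j → o.Y n m (j + 1),
    ContDiffOn ℝ ∞ g (o.U r j) ∧ ∀ y : Pnt o r,
      𝔉.F0.val _ _ (g (y.pt j)).1 - eD n m (bs y) = 𝔉.Om'.indicator ((τ y.t).D y.cfg) ∧
      𝔉.F0.val _ _ (g (y.pt j)).2.1 - eC n m (bs y) = 𝔉.Om.indicator ((τ y.t).C y.cfg) ∧
      (g (y.pt j)).2.2 = ((τ y.t).S y.cfg, (τ y.t).R y.cfg)) :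
    Aff o Fs r n m (𝔉.eq0 r n m + τ) := fun j hj => by
  obtain ⟨g, g1, g2⟩ := hg j hj
  refine ⟨g, g1, fun y => ?_⟩
  obtain ⟨a1, a2, a3⟩ := h.val_f0 (n := n) (m := m) (k := j) (by omega) y
  obtain ⟨b1, b2, b3⟩ := g2 y
  obtain ⟨c1, c2, c3⟩ := snd_snd (iY_apply (k := j) (g (y.pt j)))
  have S := sup0 h.toOK
  have e3 := congrArg₂ (· + ·) a3 (c3.trans b3)
  refine ⟨?_, ?_, congrArg Prod.fst e3, congrArg Prod.snd e3⟩
  · rw [Prod.fst_add, val_add, a1, c1, val_incl S (by omega) j.le_succ, sub_add_eq_add_sub,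
      add_sub_assoc, b1]
    exact (indicator_add' _ _ _).symm
  · rw [Prod.snd_add, Prod.fst_add, val_add, a2, c2, val_incl S (by omega) j.le_succ,
      sub_add_eq_add_sub, add_sub_assoc, b2]
    exact (indicator_add' _ _ _).symm

theorem fa_d0 (hk : 3 ≤ k) {y : Pnt o r} {D : 𝔉.F0.H (k + 2) o.Pg →L[ℝ] o.C r k} (hd : IsD y D)
    (u : Sec I o.Pg) (x : M) (a : ι) : fa (((bd o).d0 (Fs y.t) (uy y)).app (Fs y.t) u.1 x) a =
      -Wz78.nab I (Fs y.t).e (o.m.adW y.cfg.W) a u.1 x := by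
  have S := sup0 h.toOK
  have H := h.hy o y.ht
  have e1 : 𝔉.F0.val (k + 2) o.Pg (𝔉.F0.toH _ _ u) = u.1 := val_toH S (by omega) u
  have e := congrFun (H.toTw.val (H.nc_d0 (cb_uy h.toOK y)) (by omega : 4 ≤ k + 1)
    (𝔉.F0.toH _ _ u)) x
  have e2 : ((bd o).d0 (Fs y.t) (uy y)).app (Fs y.t) u.1 x = SC o (𝔉.S y.t) x
      (𝔉.F0.val _ _ (jC o r k (D (𝔉.F0.toH _ _ u))) x) :=
    ((congrArg (fun u => (Fs y.t).op _ _ u x) e1.symm).trans e.symm).trans
      ((congrArg (𝔉.F0.val _ _ · x) (DFunLike.congr_fun (h.sC_d hk hd) _).symm).trans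
        (val_SH h.toOK (by omega) y.ht (jC o r k (D (𝔉.F0.toH _ _ u))) x))
  rw [e2, val_jC h.toOK hk]
  simp only [SC, f2_sm2, map_add, f2_i1, f2_i2, map_zero, add_zero, idx_apply, ContinuousLinearMap.id_apply,
    hd.a, e1, Finset.sum_neg_distrib, Md.adW, Pnt.cfg, adc_W h.toOK y (mem_g o (u.2.2.2 x)),
    Wz78.nab, smul_neg, smul_add, Finset.sum_add_distrib, neg_add]
  rw [← D_def, (h.mx _ y.ht).D]
  rfl

/-- the slice condition from a Hardy inequality -/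
theorem sig_bij_hdy (hk : 3 ≤ k) {y : Pnt o r} (hy : Nk89.Hdy (Fs y.t))
    {D : 𝔉.F0.H (k + 2) o.Pg →L[ℝ] o.C r k} (hd : IsD y D) (hi : Injective D) :
    Bijective (sig Fs k y ∘L D) := by
  have H := h.hy o y.ht
  have N := H.nc_d0 (cb_uy h.toOK y)
  obtain ⟨C, h1, h2⟩ := H.toTw.good N
  have c := (y.ad0 h.toOK).conn
  let L : ι → CL (Cf ι (Fin o.m.N)) o.m.A := fun a => -(pj _ a ∘L fa)
  refine h.sig_bij' hk hd (hy.LL_bij h1 h2 (H.cliffL_d0 H.P _) (T := o.m.adW y.cfg.W)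
    (fun a x => Wz78.SA.clm Wz78.adcL (c.cc.sm a x)) (fun a x => Wz78.adc_skw (c.sk a x))
    (Real.sqrt_nonneg (∑ a, ‖L a‖ ^ 2))
    (fun u => ?_) (j := k + 1) ((injective_iff_map_eq_zero _).2 fun x hx => ?_) k)
  · rw [Real.sq_sqrt (by positivity), Finset.sum_mul]
    refine Finset.sum_le_sum fun a _ => ?_
    have := n2_clm_le (μ := (Fs y.t).μ) (Fs y.t).sm (L a) 0 (LS h2 u).2.1
      (FL_of_hcs 0 (LS h2 u).2.1 (LS h2 u).2.2.1)
    exact (congrArg (N2 _ 0) (funext fun x =>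
      (neg_eq_iff_eq_neg.2 (h.fa_d0 hk hd u x a)).symm)).trans_le this
  · obtain ⟨ξ, rfl⟩ := (chg (k + 2) o.Pg H.cmp).surjective x
    have e := (chg (k + 1) _ H.cmp).injective
      (((H.toTw.chg_LH N ξ).trans hx).trans (map_zero _).symm)
    exact (congrArg _ (hi ((sC_inj h.toOK y.ht (((DFunLike.congr_fun (h.sC_d hk hd) ξ).trans e).trans
      (map_zero _).symm) (hd.z ξ)).trans (map_zero D).symm))).trans (map_zero _)

variable [FiniteDimensional ℝ T] (he : Aff o Fs r n m e) (hk : 7 ≤ k) (y : Pnt o r)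
  (hF : ∀ f : o.C r k → o.Y n m k, RepF e f → Fr ((fderiv ℝ f (y.pt k)).prod (sig Fs k y)) d)
include he hF

theorem slc_gm1 [o.B0] (hy : Nk89.Hdy 𝔉.F0) (hy' : Nk89.Hdy (Fs y.t))
    (Al : (M → CL o.m.V o.m.V) → Circle → Prop)
    (h1 : ∀ w, dif o w ∈ Mod61.Hs 𝔉.F0.toPre (Ph o) → Al w 1)
    (h2 : ∀ w c, Al w c → MEq I o.m o.m 𝔉.Om id (fun x b a => 𝔉.B.P b a x) 𝔉.B.l w →
      c = 1 ∧ dif o w ∈ Mod61.Hs 𝔉.F0.toPre (Ph o)) :
    (gm1 o h.toOK hk r hy Al h1 h2).Slc e d y := by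
  have := h.slc_of he hk (gm1 o h.toOK hk r hy Al h1 h2) y (K := PUnit)
    (ContinuousLinearEquiv.prodUnique ℝ (𝔉.F0.H k o.Pg) PUnit :) (fun hf => ?_) hF
  · rwa [finrank_zero_of_subsingleton, Nat.cast_zero, sub_zero] at this
  obtain ⟨D, s, e, -⟩ := gm1_slice o h.toOK hk r hy Al h1 h2 hf
    ((gm1 o h.toOK hk r hy Al h1 h2).proper y y) (sig Fs k y)
    (h.sig_bij_hdy (by omega) hy' (isD_ga h.toOK hk y) (gm1_inj o h.toOK hk r hy Al h1 h2 hf))
  exact ⟨0, D, e, s.nh, s.du, s.dζ⟩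

theorem slc_gmC [o.B0] [CompactSpace M] (h0 : o.Φ0 = 0) (hne : 𝔉.Om'.Nonempty ∨ r ≠ 0) :
    (gmC o h.toOK hk r h0).Slc e (d - 1) y := by
  have := h.slc_of he hk (gmC o h.toOK hk r h0) y (K := ℝ) (.refl ℝ _) (fun hf => ?_) hF
  · simpa using this
  obtain ⟨l, D, s, e, -⟩ := gmC_slice o h.toOK hk r h0 hne hf
    ((gmC o h.toOK hk r h0).proper y y) (sig Fs k y)
    (h.sig_bij (by omega) (isD_ga h.toOK hk y) (gmC_inj o h.toOK hk r h0 hf))
  exact ⟨l, D, e, s.nh, s.du, s.dζ⟩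

end Adj

/-! ### ends: `Slc` from the index of `Nk89` -/

section
variable [FiniteDimensional ℝ T] (h : 𝔉.OK) (hk : 7 ≤ k) (y : Pnt o r)

/-- **`Slc` on a manifold with ends** -/
theorem slc_gmE [o.B0] (hy : Nk89.Hdy 𝔉.F0) (he : Aff o (Nk89.Fs 𝔉) r n m e)
    (hI : Nk89.Idx k e y d) :
    (gmE o h hk r hy).Slc e (d + 2 * r + finrank ℝ T - 2 * n - m) y :=
  (adj_rem h).slc_gm1 he hk y (fun _ hf => hI.slc h (by omega) hf) hy (hdy_rem h hy y.ht) _ _ _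

variable [CompactSpace M]

/-- the index of the gauge fixed linearisation on a closed manifold (`= Idg99.ind ..` by `rfl`) -/
def n0 (y : Pnt o r) : ℤ :=
  (finrank ℝ (kerS (𝔉.G y.t).F ((bd o).full (𝔉.G y.t).F (uy y))) : ℤ) -
    finrank ℝ (kerS (𝔉.G y.t).F (((bd o).full (𝔉.G y.t).F (uy y)).adj (𝔉.G y.t).F))

omit [FiniteDimensional ℝ T] in
include h in
theorem fr_n0 (k : ℕ) : Fr (((bd o).full (𝔉.G y.t).F (uy y)).H (𝔉.G y.t).F k) (n0 y) :=
  have H := (adj_closed h).hy o y.ht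
  let ⟨_, h1, h2⟩ := H.toTw.good (H.nc_full (cb_uy h y))
  Ell97.fr h1 h2 (H.cliff_full H.P _) k

/-- **`Slc` on a closed manifold, without the circle** -/
theorem slc_gmA [o.B0] (he : Aff o (fun t => (𝔉.G t).F) r n m e) :
    (gmA o h hk r).Slc e (n0 y + 2 * r + finrank ℝ T - 2 * n - m) y :=
  (adj_closed h).slc_gm1 he hk y (fun _ => (adj_closed h).fred he hk y (fr_n0 h y k)) _
    (Nk89.hdy_compact _) _ _ _

/-- **`Slc` on a closed manifold, with the circle** -/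
theorem slc_gmC [o.B0] (h0 : o.Φ0 = 0) (hne : 𝔉.Om'.Nonempty ∨ r ≠ 0)
    (he : Aff o (fun t => (𝔉.G t).F) r n m e) :
    (gmC o h hk r h0).Slc e (n0 y + 2 * r + finrank ℝ T - 2 * n - m - 1) y :=
  (adj_closed h).slc_gmC he hk y (fun _ => (adj_closed h).fred he hk y (fr_n0 h y k)) h0 hne

end

end Crest.Agent.X212.Map77
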