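import Crest.Agent.X212.Brk46.Main
import Crest.Agent.X212.Sep15.Brk
import Crest.Agent.X212.Sep15.Eqv
import Crest.Agent.X212.Win45.Main
import Crest.Agent.X212.Wal9.Main
import Crest.Agent.X212.Sm10.Dg4
import Crest.Agent.X212.Sm10.Dg5
import Crest.Agent.X212.Sw.Asm
import Crest.Agent.X212.Ix82.Eps
import Crest.Agent.X212.Ix82.Lev
import Crest.Agent.X212.Ix82.Cob
import Crest.Agent.X212.Ix82.Wts
import Crest.Agent.X212.Ix82.Main
import Crest.Agent.X212.Ix82.Loop
import Crest.Agent.X212.Map77.IxF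
import Crest.Agent.X212.Map77.IxL
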